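import Vale.Agent.P292.H442.Quad

/-! The tangent bundle of a contact Fano manifold is generated by its contact vector fields. -/

namespace Vale.Agent.P280.H398

open Vale.Agent.P292 Vale.Agent.P292.H442

universe u v

/-- The contact vector fields generate the tangent bundle: at every point `p` of the cone other
than the vertex, every tangent vector `D` at `p` is the value at `p` of the Hamiltonian vector
field `P a` of a section `a` of `L`. -/
def IsGeneratedByContactFields {R : Type u} [CommRing R] [Algebra ℂ R]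
    (𝒜 : ℕ → Submodule ℂ R) (P : R →ₗ[ℂ] R →ₗ[ℂ] R) : Prop :=
  ∀ p : R →ₐ[ℂ] ℂ, ¬ IsVertex 𝒜 p → ∀ D : R →ₗ[ℂ] ℂ,
    (∀ a b, D (a * b) = p a * D b + p b * D a) → ∃ a ∈ 𝒜 1, ∀ b, D b = p (P a b)

/-- `X` is the intersection of the quadrics containing it in `ℙ(H⁰(X, L)^*)`: every linear form
on `𝒜 1` satisfying all the quadratic relations of `R` is the restriction of a point of the
cone. -/
def IsIntersectionOfQuadrics {R : Type u} [CommRing R] [Algebra ℂ R]
    (𝒜 : ℕ → Submodule ℂ R) : Prop :=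
  ∀ l : 𝒜 1 →ₗ[ℂ] ℂ, (∀ (n : ℕ) (a b : Fin n → 𝒜 1), ∑ i, (a i : R) * b i = 0 →
    ∑ i, l (a i) * l (b i) = 0) → ∃ p : R →ₐ[ℂ] ℂ, ∀ u : 𝒜 1, p u = l u

variable {R : Type u} [CommRing R] [Algebra ℂ R]

theorem der_one {p : R →ₐ[ℂ] ℂ} {D : R →ₗ[ℂ] ℂ}
    (hD : ∀ a b, D (a * b) = p a * D b + p b * D a) : D 1 = 0 := by
  have h := hD 1 1
  rw [mul_one, map_one p, one_mul] at h
  linear_combination -h

theorem der_ext {p : R →ₐ[ℂ] ℂ} {D E : R →ₗ[ℂ] ℂ}
    (hD : ∀ a b, D (a * b) = p a * D b + p b * D a)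
    (hE : ∀ a b, E (a * b) = p a * E b + p b * E a) {S : Set R}
    (hS : Algebra.adjoin ℂ S = ⊤) (h : ∀ s ∈ S, D s = E s) (b : R) : D b = E b := by
  have hb : b ∈ Algebra.adjoin ℂ S := by rw [hS]; exact Algebra.mem_top
  induction hb using Algebra.adjoin_induction with
  | mem x hx => exact h x hx
  | algebraMap c =>
    rw [Algebra.algebraMap_eq_smul_one, map_smul, map_smul, der_one hD, der_one hE]
  | add x y _ _ hx hy => rw [map_add, map_add, hx, hy]
  | mul x y _ _ hx hy => rw [hD, hE, hx, hy]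

theorem der_sq {p : R →ₐ[ℂ] ℂ} {D : R →ₗ[ℂ] ℂ}
    (hD : ∀ a b, D (a * b) = p a * D b + p b * D a) {x : R} (hx : x ∈ RingHom.ker p ^ 2) :
    D x = 0 := by
  rw [pow_two] at hx
  refine Submodule.mul_induction_on hx (fun a ha b hb => ?_) (fun a b ha hb => ?_)
  · rw [RingHom.mem_ker] at ha hb
    rw [hD, ha, hb]; ring
  · rw [map_add, ha, hb, add_zero]

theorem generated {𝒜 : ℕ → Submodule ℂ R} [GradedAlgebra 𝒜] {P : R →ₗ[ℂ] R →ₗ[ℂ] R}
    (hX : IsContactFano 𝒜 P) (hA : IsAdjointVariety 𝒜 P) :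
    IsGeneratedByContactFields 𝒜 P := by
  intro p hp D hD
  obtain ⟨g, _, _, _, _, φ, O, hφ, hrange, hbr, hadj, -⟩ := hA
  have : FiniteDimensional ℂ (𝒜 1) := by
    rw [← hrange]; infer_instance
  -- the bilinear form
  have halt : ∀ a b, P b a = -P a b := by
    intro a b
    have h := hX.alternating (a + b)
    simp only [map_add, LinearMap.add_apply, hX.alternating, zero_add, add_zero] at h
    linear_combination h
  -- `F b a = p (P a b)`
  let F : 𝒜 1 →ₗ[ℂ] Module.Dual ℂ (𝒜 1) :=
    { toFun := fun b =>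
        { toFun := fun a => p (P (a : R) (b : R))
          map_add' := fun x y => by
            rw [Submodule.coe_add, map_add, LinearMap.add_apply, map_add]
          map_smul' := fun c x => by
            rw [Submodule.coe_smul, map_smul, LinearMap.smul_apply, map_smul, RingHom.id_apply] }
      map_add' := fun x y => by
        ext a
        change p (P (a : R) ((x + y : 𝒜 1) : R)) = p (P (a : R) (x : R)) + p (P (a : R) (y : R))
        rw [Submodule.coe_add, map_add, map_add]
      map_smul' := fun c x => by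
        ext a
        change p (P (a : R) ((c • x : 𝒜 1) : R)) = c • p (P (a : R) (x : R))
        rw [Submodule.coe_smul, map_smul, map_smul] }
  have hF : ∀ a b : 𝒜 1, F b a = p (P (a : R) (b : R)) := fun a b => rfl
  have hDker : D.domRestrict (𝒜 1) ∈ (LinearMap.ker F).dualAnnihilator := by
    rw [Submodule.mem_dualAnnihilator]
    intro b hb
    rw [LinearMap.mem_ker] at hb
    rw [LinearMap.domRestrict_apply]
    have h1 : ∀ a : 𝒜 1, p (P (a : R) (b : R)) = 0 := fun a => by rw [← hF, hb]; rfl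
    -- derivation `a ↦ p (P b a)` vanishes on the generators
    have h2 : ∀ a : R, p (P (b : R) a) = 0 := by
      intro a
      let E : R →ₗ[ℂ] ℂ := p.toLinearMap.comp (P (b : R))
      have hE : ∀ x y, E (x * y) = p x * E y + p y * E x := by
        intro x y
        change p (P (b : R) (x * y)) = p x * p (P (b : R) y) + p y * p (P (b : R) x)
        rw [hX.leibniz, map_add, map_mul, map_mul]; ring
      have h3 := der_ext (D := E) (E := 0) (p := p) hE (by intro x y; simp) hadj (fun s hs => by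
        change p (P (b : R) s) = 0
        rw [halt s b, map_neg, h1 ⟨s, hs⟩, neg_zero]) a
      exact h3
    have h4 := hX.nondegenerate p hp (b : R) h2
    have h5 := der_sq hD h4
    rw [map_sub, Algebra.algebraMap_eq_smul_one, map_smul, der_one hD, smul_zero, sub_zero] at h5
    exact h5
  rw [← LinearMap.range_dualMap_eq_dualAnnihilator_ker, LinearMap.mem_range] at hDker
  obtain ⟨Ξ, hΞ⟩ := hDker
  obtain ⟨a, ha⟩ := (Module.evalEquiv ℂ (𝒜 1)).surjective Ξ
  refine ⟨a, a.2, fun b => ?_⟩
  let E : R →ₗ[ℂ] ℂ := p.toLinearMap.comp (P (a : R))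
  have hE : ∀ x y, E (x * y) = p x * E y + p y * E x := by
    intro x y
    change p (P (a : R) (x * y)) = p x * p (P (a : R) y) + p y * p (P (a : R) x)
    rw [hX.leibniz, map_add, map_mul, map_mul]; ring
  refine der_ext (D := D) (E := E) (p := p) hD hE hadj (fun s hs => ?_) b
  change D s = p (P (a : R) s)
  have h6 : D.domRestrict (𝒜 1) ⟨s, hs⟩ = F ⟨s, hs⟩ a := by
    rw [← hΞ, ← ha]
    rfl
  rw [LinearMap.domRestrict_apply, hF] at h6
  exact h6

end Vale.Agent.P280.H398
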